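import Mathlib

/-!
Linear algebra and Littlewood-Offord facts for symmetric sign matrices.
-/

namespace Vale.Agent.Lib.P160

open Finset

/-- sign of a bit -/
def sg (b : Bool) : ℝ := if b then 1 else -1

lemma sg_ne_zero (b : Bool) : sg b ≠ 0 := by cases b <;> simp [sg]

lemma sg_sq (b : Bool) : sg b * sg b = 1 := by cases b <;> simp [sg]

lemma sg_eq_of_abs (b : Bool) : sg b = 1 ∨ sg b = -1 := by cases b <;> simp [sg]

section LO

variable {ι : Type*} [Fintype ι] [DecidableEq ι]

open Classical in
/-- Littlewood-Offord with all coefficients nonzero. -/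
theorem littlewood_offord (v : ι → ℝ) (hv : ∀ j, v j ≠ 0) :
    (univ.filter fun σ : ι → Bool => ∑ j, sg (σ j) * v j = 0).card
      ≤ (Fintype.card ι).choose (Fintype.card ι / 2) := by
  set F := univ.filter fun σ : ι → Bool => ∑ j, sg (σ j) * v j = 0 with hF
  -- the set of coordinates contributing positively
  let T : (ι → Bool) → Finset ι := fun σ => univ.filter fun j => 0 < sg (σ j) * v j
  have hT : ∀ σ, ∑ j, sg (σ j) * v j = ∑ j ∈ T σ, |v j| - ∑ j ∈ (T σ)ᶜ, |v j| := by
    intro σ
    rw [← sum_add_sum_compl (T σ) (fun j => sg (σ j) * v j)]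
    have h1 : ∑ j ∈ T σ, sg (σ j) * v j = ∑ j ∈ T σ, |v j| := by
      refine sum_congr rfl fun j hj => ?_
      have hpos : 0 < sg (σ j) * v j := (mem_filter.1 hj).2
      rcases sg_eq_of_abs (σ j) with h | h
      · rw [h] at hpos ⊢
        rw [abs_of_pos (by linarith)]; ring
      · rw [h] at hpos ⊢
        rw [abs_of_neg (by linarith)]; ring
    have h2 : ∑ j ∈ (T σ)ᶜ, sg (σ j) * v j = - ∑ j ∈ (T σ)ᶜ, |v j| := by
      rw [← sum_neg_distrib]
      refine sum_congr rfl fun j hj => ?_
      have hnpos : ¬ 0 < sg (σ j) * v j := by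
        intro h
        exact (mem_compl.1 hj) (mem_filter.2 ⟨mem_univ _, h⟩)
      have hne : sg (σ j) * v j ≠ 0 := mul_ne_zero (sg_ne_zero _) (hv j)
      have hneg : sg (σ j) * v j < 0 := lt_of_le_of_ne (not_lt.1 hnpos) hne
      rcases sg_eq_of_abs (σ j) with h | h
      · rw [h] at hneg ⊢
        rw [abs_of_neg (by linarith)]; ring
      · rw [h] at hneg ⊢
        rw [abs_of_pos (by linarith)]; ring
    rw [h1, h2]; ring
  have hinj : Set.InjOn T (F : Set (ι → Bool)) := by
    intro σ _ τ _ hστ
    funext j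
    have h1 : (j ∈ T σ) ↔ (j ∈ T τ) := by rw [hστ]
    simp only [T, mem_filter, mem_univ, true_and] at h1
    rcases lt_or_gt_of_ne (hv j) with hneg | hpos
    · cases hs : σ j <;> cases ht : τ j <;> simp [hs, ht, sg] at h1 ⊢
      · exact absurd (h1.mp hneg) (by linarith)
      · exact absurd (h1.mpr hneg) (by linarith)
    · cases hs : σ j <;> cases ht : τ j <;> simp [hs, ht, sg] at h1 ⊢
      · exact absurd (h1.mpr hpos) (by linarith)
      · exact absurd (h1.mp hpos) (by linarith)
  have hanti : IsAntichain (· ⊆ ·) (SetLike.coe (F.image T)) := by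
    intro A hA B hB hne hsub
    obtain ⟨σ, hσ, rfl⟩ := mem_image.1 (mem_coe.1 hA)
    obtain ⟨τ, hτ, rfl⟩ := mem_image.1 (mem_coe.1 hB)
    apply hne
    have h1 := hT σ
    have h2 := hT τ
    rw [(mem_filter.1 hσ).2] at h1
    rw [(mem_filter.1 hτ).2] at h2
    -- the positive parts have equal mass, so the inclusion is an equality
    have htot1 : ∑ j ∈ T σ, |v j| + ∑ j ∈ (T σ)ᶜ, |v j| = ∑ j, |v j| := sum_add_sum_compl _ _
    have htot2 : ∑ j ∈ T τ, |v j| + ∑ j ∈ (T τ)ᶜ, |v j| = ∑ j, |v j| := sum_add_sum_compl _ _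
    have heq : ∑ j ∈ T σ, |v j| = ∑ j ∈ T τ, |v j| := by linarith
    by_contra hne'
    obtain ⟨j, hj, hjn⟩ : ∃ j ∈ T τ, j ∉ T σ := by
      by_contra hcon
      push Not at hcon
      exact hne' (Subset.antisymm hsub hcon)
    have hlt : ∑ i ∈ T σ, |v i| < ∑ i ∈ T τ, |v i| :=
      sum_lt_sum_of_subset hsub hj hjn (abs_pos.2 (hv j)) (fun i _ _ => abs_nonneg _)
    linarith
  have hsper := hanti.sperner
  rw [card_image_of_injOn hinj] at hsper
  exact hsper

end LO

section Principal

variable {ι : Type*} [Fintype ι] [DecidableEq ι]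

/-- independence of rows indexed by `I` -/
def RowsIndep (N : ι → ι → ℝ) (I : Finset ι) : Prop :=
  ∀ z : ι → ℝ, (∀ m, ∑ i ∈ I, z i * N i m = 0) → ∀ i ∈ I, z i = 0

open Classical in
theorem exists_principal (N : ι → ι → ℝ) (hN : ∀ a b, N a b = N b a) :
    ∃ I : Finset ι,
      (∀ l, ∃ c : ι → ℝ, ∀ m, N l m = ∑ i ∈ I, c i * N i m) ∧
      (∀ z : ι → ℝ, (∀ i ∈ I, ∑ i' ∈ I, z i' * N i' i = 0) → ∀ i ∈ I, z i = 0) ∧
      RowsIndep N I := by
  -- a maximal independent set of rows
  have hne : ((univ : Finset (Finset ι)).filter (RowsIndep N)).Nonempty := by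
    refine ⟨∅, mem_filter.2 ⟨mem_univ _, ?_⟩⟩
    intro z _ i hi
    simp at hi
  obtain ⟨I, hI, hmax⟩ := exists_max_image _ Finset.card hne
  have hIind : RowsIndep N I := (mem_filter.1 hI).2
  have hspan : ∀ l, ∃ c : ι → ℝ, ∀ m, N l m = ∑ i ∈ I, c i * N i m := by
    intro l
    by_cases hl : l ∈ I
    · refine ⟨fun i => if i = l then 1 else 0, fun m => ?_⟩
      rw [sum_eq_single l]
      · simp
      · intro b _ hb; simp [hb]
      · intro h; exact absurd hl h
    · have hnot : ¬ RowsIndep N (insert l I) := by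
        intro hind
        have := hmax _ (mem_filter.2 ⟨mem_univ _, hind⟩)
        rw [card_insert_of_notMem hl] at this
        omega
      unfold RowsIndep at hnot
      push Not at hnot
      obtain ⟨z, hz, i, hi, hzi⟩ := hnot
      have hzl : z l ≠ 0 := by
        intro hzl
        have hz' : ∀ m, ∑ i ∈ I, z i * N i m = 0 := by
          intro m
          have := hz m
          rw [sum_insert hl, hzl, zero_mul, zero_add] at this
          exact this
        rcases mem_insert.1 hi with rfl | hi'
        · exact hzi hzl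
        · exact hzi (hIind z hz' i hi')
      refine ⟨fun i => - z i / z l, fun m => ?_⟩
      have := hz m
      rw [sum_insert hl] at this
      have h2 : ∑ i ∈ I, -z i / z l * N i m = - (∑ i ∈ I, z i * N i m) / z l := by
        rw [neg_div, sum_div, ← sum_neg_distrib]
        refine sum_congr rfl fun i _ => ?_
        ring
      rw [h2]
      field_simp
      linarith
  refine ⟨I, hspan, ?_, hIind⟩
  intro z hz
  apply hIind z
  intro m
  obtain ⟨c, hc⟩ := hspan m
  calc ∑ i' ∈ I, z i' * N i' m = ∑ i' ∈ I, z i' * N m i' :=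
        sum_congr rfl fun i' _ => by rw [hN]
    _ = ∑ i' ∈ I, z i' * ∑ i ∈ I, c i * N i i' := sum_congr rfl fun i' _ => by rw [hc i']
    _ = ∑ i ∈ I, c i * ∑ i' ∈ I, z i' * N i i' := by
        simp only [mul_sum]
        rw [sum_comm]
        refine sum_congr rfl fun i _ => sum_congr rfl fun i' _ => ?_
        ring
    _ = ∑ i ∈ I, c i * ∑ i' ∈ I, z i' * N i' i := by
        refine sum_congr rfl fun i _ => ?_
        congr 1
        exact sum_congr rfl fun i' _ => by rw [hN]
    _ = 0 := by
        refine sum_eq_zero fun i hi => ?_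
        rw [hz i hi, mul_zero]

/-- Determination of the block `J × J` from the rest. -/
theorem entries_determined (N N' : ι → ι → ℝ) (I : Finset ι)
    (hspan : ∀ l, ∃ c : ι → ℝ, ∀ m, N l m = ∑ i ∈ I, c i * N i m)
    (hspan' : ∀ l, ∃ c : ι → ℝ, ∀ m, N' l m = ∑ i ∈ I, c i * N' i m)
    (hinv : ∀ z : ι → ℝ, (∀ i ∈ I, ∑ i' ∈ I, z i' * N i' i = 0) → ∀ i ∈ I, z i = 0)
    (hag : ∀ a b, (a ∈ I ∨ b ∈ I) → N a b = N' a b) :
    ∀ a b, N a b = N' a b := by
  intro a b
  by_cases hb : b ∈ I
  · exact hag a b (Or.inr hb)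
  by_cases ha : a ∈ I
  · exact hag a b (Or.inl ha)
  obtain ⟨c, hc⟩ := hspan a
  obtain ⟨c', hc'⟩ := hspan' a
  -- coefficients agree on I
  have hcc : ∀ i ∈ I, c i - c' i = 0 := by
    apply hinv (fun i => c i - c' i)
    intro i hi
    have h1 : N a i = ∑ i' ∈ I, c i' * N i' i := hc i
    have h2 : N' a i = ∑ i' ∈ I, c' i' * N' i' i := hc' i
    have h3 : N a i = N' a i := hag a i (Or.inr hi)
    have h4 : ∑ i' ∈ I, c' i' * N' i' i = ∑ i' ∈ I, c' i' * N i' i :=
      sum_congr rfl fun i' hi' => by rw [hag i' i (Or.inl hi')]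
    simp only [sub_mul]
    rw [sum_sub_distrib, ← h1, ← h4, ← h2, h3, sub_self]
  calc N a b = ∑ i ∈ I, c i * N i b := hc b
    _ = ∑ i ∈ I, c' i * N' i b := by
        refine sum_congr rfl fun i hi => ?_
        rw [hag i b (Or.inl hi), sub_eq_zero.1 (hcc i hi)]
    _ = N' a b := (hc' b).symm

/-- the kernel of a matrix given as a function -/
def kerOf (N : ι → ι → ℝ) : Submodule ℝ (ι → ℝ) where
  carrier := {y | ∀ l, ∑ m, N l m * y m = 0}
  add_mem' := by
    intro a b ha hb l
    have h1 := ha l
    have h2 := hb l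
    simp only [Pi.add_apply, mul_add]
    rw [sum_add_distrib, h1, h2, add_zero]
  zero_mem' := by
    intro l
    simp
  smul_mem' := by
    intro c a ha l
    have h1 := ha l
    simp only [Pi.smul_apply, smul_eq_mul]
    have : ∑ m, N l m * (c * a m) = c * ∑ m, N l m * a m := by
      rw [mul_sum]
      exact sum_congr rfl fun m _ => by ring
    rw [this, h1, mul_zero]

lemma mem_kerOf {N : ι → ι → ℝ} {y : ι → ℝ} : y ∈ kerOf N ↔ ∀ l, ∑ m, N l m * y m = 0 := Iff.rfl

/-- `finrank` of the kernel in terms of a basis of the rows. -/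
theorem finrank_kerOf (N : ι → ι → ℝ) (I : Finset ι)
    (hspan : ∀ l, ∃ c : ι → ℝ, ∀ m, N l m = ∑ i ∈ I, c i * N i m)
    (hind : RowsIndep N I) :
    Module.finrank ℝ (kerOf N) + I.card = Fintype.card ι := by
  classical
  let A : Matrix ι ι ℝ := Matrix.of N
  have hker : kerOf N = LinearMap.ker A.mulVecLin := by
    ext y
    simp only [mem_kerOf, LinearMap.mem_ker, Matrix.mulVecLin_apply]
    constructor
    · intro h
      funext l
      exact h l
    · intro h l
      exact congrFun h l
  have hrank : A.rank = I.card := by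
    have hr := Matrix.rank_eq_finrank_span_row A
    rw [hr]
    have hspan_eq : Submodule.span ℝ (Set.range A.row)
        = Submodule.span ℝ (Set.range (fun i : I => A.row i)) := by
      apply le_antisymm
      · rw [Submodule.span_le]
        rintro _ ⟨l, rfl⟩
        obtain ⟨c, hc⟩ := hspan l
        have : A.row l = ∑ i : I, c i • A.row i := by
          funext m
          simp only [Finset.sum_apply, Pi.smul_apply, smul_eq_mul]
          show N l m = ∑ i : I, c i * N i m
          rw [hc m]
          exact (sum_coe_sort I (fun i => c i * N i m)).symm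
        rw [this]
        refine Submodule.sum_mem _ fun i _ => Submodule.smul_mem _ _ ?_
        exact Submodule.subset_span ⟨i, rfl⟩
      · apply Submodule.span_mono
        rintro _ ⟨i, rfl⟩
        exact ⟨i, rfl⟩
    rw [hspan_eq]
    have hli : LinearIndependent ℝ (fun i : I => A.row i) := by
      rw [Fintype.linearIndependent_iff]
      intro g hg i
      let z : ι → ℝ := fun a => if h : a ∈ I then g ⟨a, h⟩ else 0
      have hz : ∀ m, ∑ a ∈ I, z a * N a m = 0 := by
        intro m
        have h1 := congrFun hg m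
        simp only [Finset.sum_apply, Pi.smul_apply, smul_eq_mul, Pi.zero_apply] at h1
        rw [← sum_coe_sort I]
        rw [← h1]
        refine sum_congr rfl fun a _ => ?_
        simp [z, Matrix.row, A]
      have := hind z hz i i.2
      simpa [z] using this
    rw [finrank_span_eq_card hli]
    simp
  have hrn := LinearMap.finrank_range_add_finrank_ker A.mulVecLin
  rw [Module.finrank_pi] at hrn
  have hrk : Module.finrank ℝ (LinearMap.range A.mulVecLin) = A.rank := rfl
  rw [hrk, hrank, ← hker] at hrn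
  omega

end Principal

end Vale.Agent.Lib.P160
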