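import Mathlib

/-!
Selecting few functionals that cut a finite dimensional space down to a line.
-/

namespace Vale.Agent.Lib.P160

open Finset

variable {κ : Type} [DecidableEq κ]

/-- If `n + 1`-dimensional `V` is cut down to the line of `x` by functionals indexed by `I`, all
killing `x`, then exactly `n` of them suffice. -/
theorem exists_small_rows (n : ℕ) :
    ∀ (V : Type) [AddCommGroup V] [Module ℝ V] [FiniteDimensional ℝ V],
    Module.finrank ℝ V = n + 1 → ∀ x : V, x ≠ 0 → ∀ (I : Finset κ) (ℓ : κ → V →ₗ[ℝ] ℝ),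
    (∀ i ∈ I, ℓ i x = 0) → (∀ y : V, (∀ i ∈ I, ℓ i y = 0) → ∃ c : ℝ, y = c • x) →
    ∃ R ⊆ I, R.card = n ∧ ∀ y : V, (∀ i ∈ R, ℓ i y = 0) → ∃ c : ℝ, y = c • x := by
  induction n with
  | zero =>
    intro V _ _ _ hfin x hx I ℓ _ _
    refine ⟨∅, empty_subset _, rfl, fun y _ => ?_⟩
    obtain ⟨c, hc⟩ := (finrank_eq_one_iff_of_nonzero' x hx).1 hfin y
    exact ⟨c, hc.symm⟩
  | succ n ih =>
    intro V _ _ _ hfin x hx I ℓ hxI hker
    have hne : Submodule.span ℝ {x} ≠ ⊤ := by
      intro htop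
      have h1 : Module.finrank ℝ (Submodule.span ℝ {x}) = 1 := finrank_span_singleton hx
      rw [htop, finrank_top] at h1
      omega
    obtain ⟨y, hy⟩ : ∃ y : V, y ∉ Submodule.span ℝ {x} := by
      by_contra hcon
      push Not at hcon
      exact hne (eq_top_iff.2 fun y _ => hcon y)
    obtain ⟨i, hi, hiy⟩ : ∃ i ∈ I, ℓ i y ≠ 0 := by
      by_contra hcon
      push Not at hcon
      obtain ⟨c, hc⟩ := hker y hcon
      exact hy (Submodule.mem_span_singleton.2 ⟨c, hc.symm⟩)
    have hℓ : ℓ i ≠ 0 := fun h => hiy (by rw [h]; rfl)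
    have hfin' : Module.finrank ℝ (LinearMap.ker (ℓ i)) + 1 = Module.finrank ℝ V :=
      Module.Dual.finrank_ker_add_one_of_ne_zero hℓ
    let x' : LinearMap.ker (ℓ i) := ⟨x, hxI i hi⟩
    have hx' : x' ≠ 0 := by
      intro h
      apply hx
      have := congrArg Subtype.val h
      simpa [x'] using this
    obtain ⟨R, hRsub, hRcard, hR⟩ := ih (LinearMap.ker (ℓ i)) (by omega) x' hx' (I.erase i)
      (fun j => (ℓ j).domRestrict (LinearMap.ker (ℓ i)))
      (fun j hj => hxI j (mem_of_mem_erase hj))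
      (by
        intro z hz
        obtain ⟨c, hc⟩ := hker z.1 (by
          intro j hj
          by_cases hji : j = i
          · rw [hji]; exact z.2
          · exact hz j (mem_erase.2 ⟨hji, hj⟩))
        refine ⟨c, Subtype.ext ?_⟩
        simpa [x'] using hc)
    have hiR : i ∉ R := fun h => (mem_erase.1 (hRsub h)).1 rfl
    refine ⟨insert i R, insert_subset hi (hRsub.trans (erase_subset _ _)), ?_, ?_⟩
    · rw [card_insert_of_notMem hiR, hRcard]
    · intro z hz
      have hzi : z ∈ LinearMap.ker (ℓ i) := hz i (mem_insert_self _ _)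
      obtain ⟨c, hc⟩ := hR ⟨z, hzi⟩ (fun j hj => hz j (mem_insert_of_mem hj))
      refine ⟨c, ?_⟩
      have := congrArg Subtype.val hc
      simpa [x'] using this

end Vale.Agent.Lib.P160
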