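import Mathlib
import Vale.Agent.Lib.P160.Linear
import Vale.Agent.Lib.P160.Rows

/-!
From a sparse kernel vector to combinatorial witness data.
-/

namespace Vale.Agent.Lib.P160

open Finset

variable {ι : Type} [Fintype ι] [DecidableEq ι]

/-- The symmetric sign matrix attached to a bit assignment on unordered pairs (diagonal included). -/
def mat (ω : Sym2 ι → Bool) (a b : ι) : ℝ := sg (ω s(a, b))

omit [Fintype ι] [DecidableEq ι] in
lemma mat_comm (ω : Sym2 ι → Bool) (a b : ι) : mat ω a b = mat ω b a := by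
  simp [mat, Sym2.eq_swap]

/-- The principal block on `S`. -/
def subM (ω : Sym2 ι → Bool) (S : Finset ι) : S → S → ℝ := fun a b => mat ω a b

/-- The witness data attached to a bit assignment. -/
structure Wit (ω : Sym2 ι → Bool) (S R : Finset ι) (I : Finset S) : Prop where
  span : ∀ l, ∃ c : S → ℝ, ∀ m, subM ω S l m = ∑ i ∈ I, c i * subM ω S i m
  inv : ∀ z : S → ℝ, (∀ i ∈ I, ∑ i' ∈ I, z i' * subM ω S i' i = 0) → ∀ i ∈ I, z i = 0
  vec : ∃ v : S → ℝ, (∀ a, v a ≠ 0) ∧ (∀ i : ι, ∑ b : S, mat ω i b * v b = 0) ∧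
    ∀ y : S → ℝ, (∀ a : S, ∑ b : S, subM ω S a b * y b = 0) →
      (∀ i ∈ R, ∑ b : S, mat ω i b * y b = 0) → ∃ c : ℝ, y = c • v

/-- the row functional on vectors on `S`. -/
noncomputable def rowFun (ω : Sym2 ι → Bool) (S : Finset ι) (i : ι) : (S → ℝ) →ₗ[ℝ] ℝ :=
  ∑ b : S, (mat ω i b) • LinearMap.proj b

omit [Fintype ι] [DecidableEq ι] in
lemma rowFun_apply (ω : Sym2 ι → Bool) (S : Finset ι) (i : ι) (y : S → ℝ) :
    rowFun ω S i y = ∑ b : S, mat ω i b * y b := by
  simp [rowFun, LinearMap.sum_apply]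

/-- support of a vector -/
noncomputable def supp (x : ι → ℝ) : Finset ι := by
  classical exact univ.filter fun a => x a ≠ 0

omit [DecidableEq ι] in
lemma mem_supp {x : ι → ℝ} {a : ι} : a ∈ supp x ↔ x a ≠ 0 := by
  classical
  simp [supp]

/-- a bit assignment is bad at level `s` if its matrix has a nonzero kernel vector with at most
`s` nonzero coordinates. -/
def Bad (ω : Sym2 ι → Bool) (s : ℕ) : Prop :=
  ∃ x : ι → ℝ, x ≠ 0 ∧ (∀ a, ∑ b, mat ω a b * x b = 0) ∧ (supp x).card ≤ s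

theorem exists_wit (ω : Sym2 ι → Bool) (s : ℕ) (h : Bad ω s) :
    ∃ (S R : Finset ι) (I : Finset S), S.Nonempty ∧ S.card ≤ s ∧ Disjoint R S ∧
      R.card + 1 + I.card = S.card ∧ Wit ω S R I := by
  classical
  obtain ⟨x, hx0, hxk, hxs⟩ := h
  -- a kernel vector of minimal support
  let Pm : ℕ → Prop := fun m => ∃ x : ι → ℝ, x ≠ 0 ∧ (∀ a, ∑ b, mat ω a b * x b = 0) ∧
    (supp x).card = m
  have hex : ∃ m, Pm m := ⟨_, x, hx0, hxk, rfl⟩
  obtain ⟨x₀, hx₀, hx₀k, hx₀c⟩ := Nat.find_spec hex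
  have hmin : ∀ z : ι → ℝ, z ≠ 0 → (∀ a, ∑ b, mat ω a b * z b = 0) →
      (supp x₀).card ≤ (supp z).card := by
    intro z hz hzk
    rw [hx₀c]
    exact Nat.find_min' hex ⟨z, hz, hzk, rfl⟩
  set S := supp x₀ with hS
  have hsS : S.card ≤ s := (hmin x hx0 hxk).trans hxs
  have hSne : S.Nonempty := by
    by_contra hcon
    rw [not_nonempty_iff_eq_empty] at hcon
    apply hx₀
    funext a
    by_contra ha
    have : a ∈ S := mem_supp.2 ha
    rw [hcon] at this
    exact absurd this (notMem_empty a)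
  let v : S → ℝ := fun a => x₀ a
  have hv : ∀ a, v a ≠ 0 := fun a => (mem_supp (x := x₀) (a := (a : ι))).1 a.2
  have hrows : ∀ i : ι, ∑ b : S, mat ω i b * v b = 0 := by
    intro i
    have h1 : ∑ b : S, mat ω i b * v b = ∑ b ∈ S, mat ω i b * x₀ b :=
      sum_coe_sort S (fun b => mat ω i b * x₀ b)
    rw [h1, ← hx₀k i]
    refine sum_subset (subset_univ _) fun b _ hb => ?_
    have : x₀ b = 0 := by
      by_contra h0
      exact hb (mem_supp.2 h0)
    rw [this, mul_zero]
  -- kernel vectors supported on S are multiples of v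
  have hline : ∀ y : S → ℝ, (∀ i : ι, ∑ b : S, mat ω i b * y b = 0) → ∃ c : ℝ, y = c • v := by
    intro y hy
    obtain ⟨b₀, hb₀⟩ := hSne
    let c : ℝ := y ⟨b₀, hb₀⟩ / x₀ b₀
    refine ⟨c, ?_⟩
    let Y : ι → ℝ := fun a => if h : a ∈ S then y ⟨a, h⟩ else 0
    let Z : ι → ℝ := fun a => Y a - c * x₀ a
    have hYk : ∀ i, ∑ b, mat ω i b * Y b = 0 := by
      intro i
      rw [← hy i]
      have h1 : ∑ b : S, mat ω i b * y b = ∑ b : S, mat ω i b * Y b := by
        refine sum_congr rfl fun b _ => ?_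
        simp [Y]
      rw [h1, sum_coe_sort S (fun b => mat ω i b * Y b)]
      refine (sum_subset (subset_univ _) fun b _ hb => ?_).symm
      simp [Y, hb]
    have hZk : ∀ i, ∑ b, mat ω i b * Z b = 0 := by
      intro i
      have h1 : ∑ b, mat ω i b * Z b = ∑ b, mat ω i b * Y b - c * ∑ b, mat ω i b * x₀ b := by
        rw [mul_sum, ← sum_sub_distrib]
        exact sum_congr rfl fun b _ => by simp only [Z]; ring
      rw [h1, hYk i, hx₀k i, mul_zero, sub_zero]
    have hb₀x : x₀ b₀ ≠ 0 := mem_supp.1 hb₀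
    have hZb₀ : Z b₀ = 0 := by
      simp only [Z, Y, hb₀, dif_pos, c]
      field_simp
      simp
    have hZsupp : supp Z ⊂ S := by
      refine ssubset_iff_of_subset ?_ |>.2 ⟨b₀, hb₀, ?_⟩
      · intro a ha
        by_contra has
        apply mem_supp.1 ha
        have h1 : x₀ a = 0 := by
          by_contra h0
          exact has (mem_supp.2 h0)
        simp only [Z, Y, has, dif_neg, not_false_eq_true, h1]
        simp
      · intro h
        exact mem_supp.1 h hZb₀
    have hZ0 : Z = 0 := by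
      by_contra hZne
      have := hmin Z hZne hZk
      have h2 := card_lt_card hZsupp
      omega
    funext a
    have h1 := congrFun hZ0 a.1
    simp only [Z, Y, a.2, dif_pos, Pi.zero_apply, Subtype.coe_eta] at h1
    simp only [Pi.smul_apply, smul_eq_mul, v]
    linarith
  -- the principal block
  have hsym : ∀ a b : S, subM ω S a b = subM ω S b a := fun a b => mat_comm ω a b
  obtain ⟨I, hspan, hinv, hind⟩ := exists_principal (subM ω S) hsym
  have hrk := finrank_kerOf (subM ω S) I hspan hind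
  have hcardS : Fintype.card S = S.card := Fintype.card_coe S
  -- v is in the kernel
  have hvK : v ∈ kerOf (subM ω S) := by
    intro a
    exact hrows a
  let v' : kerOf (subM ω S) := ⟨v, hvK⟩
  have hv'ne : v' ≠ 0 := by
    intro h
    have h1 := congrArg Subtype.val h
    obtain ⟨b₀, hb₀⟩ := hSne
    have h2 := congrFun h1 ⟨b₀, hb₀⟩
    exact hv ⟨b₀, hb₀⟩ h2
  have hpos : 0 < Module.finrank ℝ (kerOf (subM ω S)) :=
    Module.finrank_pos_iff_exists_ne_zero.2 ⟨v', hv'ne⟩
  obtain ⟨r, hr⟩ : ∃ r, Module.finrank ℝ (kerOf (subM ω S)) = r + 1 :=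
    ⟨Module.finrank ℝ (kerOf (subM ω S)) - 1, by omega⟩
  let ℓ : ι → (kerOf (subM ω S)) →ₗ[ℝ] ℝ := fun i => (rowFun ω S i).domRestrict _
  have hℓ : ∀ i (y : kerOf (subM ω S)), ℓ i y = ∑ b : S, mat ω i b * y.1 b := by
    intro i y
    simp only [ℓ, LinearMap.domRestrict_apply]
    exact rowFun_apply ω S i y.1
  obtain ⟨R, hRsub, hRcard, hR⟩ := exists_small_rows r (kerOf (subM ω S)) hr v' hv'ne Sᶜ ℓ
    (by
      intro i _
      rw [hℓ]
      exact hrows i)
    (by
      intro y hy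
      obtain ⟨c, hc⟩ := hline y.1 (by
        intro i
        by_cases hi : i ∈ S
        · exact y.2 ⟨i, hi⟩
        · rw [← hℓ]
          exact hy i (mem_compl.2 hi))
      exact ⟨c, Subtype.ext hc⟩)
  refine ⟨S, R, I, ⟨_, hSne.choose_spec⟩, hsS, ?_, ?_, ⟨hspan, hinv, v, hv, hrows, ?_⟩⟩
  · rw [disjoint_left]
    intro a ha
    exact mem_compl.1 (hRsub ha)
  · omega
  · intro y hy hyR
    have hyK : y ∈ kerOf (subM ω S) := hy
    obtain ⟨c, hc⟩ := hR ⟨y, hyK⟩ (by
      intro i hi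
      rw [hℓ]
      exact hyR i hi)
    refine ⟨c, ?_⟩
    have := congrArg Subtype.val hc
    simpa [v'] using this

end Vale.Agent.Lib.P160
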