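import Mathlib
import Vale.Agent.Lib.P160.Witness

/-!
Counting the bit assignments with given witness data.
-/

namespace Vale.Agent.Lib.P160

open Finset

variable {ι : Type} [Fintype ι] [DecidableEq ι]

lemma sg_inj {a b : Bool} (h : sg a = sg b) : a = b := by
  cases a <;> cases b <;> simp [sg] at h ⊢ <;> norm_num at h

theorem wit_count_nat (S R : Finset ι) (I : Finset S) (hdisj : Disjoint R S)
    (hcard : R.card + 1 + I.card = S.card) :
    ∃ a, a + (R.card + 2).choose 2 + (Fintype.card ι - S.card - R.card) * S.card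
        = Fintype.card (Sym2 ι) ∧
      (by classical exact (univ.filter fun ω : Sym2 ι → Bool => Wit ω S R I).card)
        ≤ (S.card.choose (S.card / 2)) ^ (Fintype.card ι - S.card - R.card) * 2 ^ a := by
  classical
  set J : Finset ι := (Iᶜ).map (Function.Embedding.subtype _) with hJ
  have hJS : ∀ a ∈ J, a ∈ S := by
    intro a ha
    obtain ⟨b, _, rfl⟩ := mem_map.1 ha
    exact b.2
  have hJI : ∀ a : S, a ∈ I → (a : ι) ∉ J := by
    intro a ha haJ
    obtain ⟨b, hb, hba⟩ := mem_map.1 haJ
    have : b = a := Subtype.ext hba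
    rw [this] at hb
    exact (mem_compl.1 hb) ha
  have hJcard : J.card = R.card + 1 := by
    rw [hJ, card_map, card_compl, Fintype.card_coe]; omega
  set T' : Finset ι := Sᶜ \ R with hT'
  have hRS : R ⊆ Sᶜ := fun a ha => mem_compl.2 (disjoint_left.1 hdisj ha)
  have hT'card : T'.card = Fintype.card ι - S.card - R.card := by
    rw [hT', card_sdiff_of_subset hRS, card_compl]
  have hT'S : ∀ a ∈ T', a ∉ S := fun a ha => mem_compl.1 (mem_sdiff.1 ha).1
  have hT'R : ∀ a ∈ T', a ∉ R := fun a ha => (mem_sdiff.1 ha).2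
  set D1 : Finset (Sym2 ι) := J.sym2 with hD1
  set D4 : Finset (Sym2 ι) := (T' ×ˢ S).image (fun p => s(p.1, p.2)) with hD4
  have hD1card : D1.card = (R.card + 2).choose 2 := by
    rw [hD1, card_sym2, hJcard]
  have hD4card : D4.card = (Fintype.card ι - S.card - R.card) * S.card := by
    rw [hD4, card_image_of_injOn, card_product, hT'card]
    rintro ⟨i, b⟩ hp ⟨i', b'⟩ hp' heq
    have hp1 := mem_product.1 (mem_coe.1 hp)
    have hp2 := mem_product.1 (mem_coe.1 hp')
    simp only [Sym2.eq_iff] at heq
    rcases heq with ⟨h1, h2⟩ | ⟨h1, h2⟩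
    · have h1' : i = i' := h1
      have h2' : b = b' := h2
      rw [h1', h2']
    · have h1' : i = b' := h1
      exact absurd (show i ∈ S by rw [h1']; exact hp2.2) (hT'S _ hp1.1)
  have hD14 : Disjoint D1 D4 := by
    rw [disjoint_left]
    intro e he1 he4
    obtain ⟨⟨i, b⟩, hp, rfl⟩ := mem_image.1 he4
    have hp1 := mem_product.1 hp
    have := (mk_mem_sym2_iff.1 he1).1
    exact hT'S _ hp1.1 (hJS _ this)
  set A : Finset (Sym2 ι) := (D1 ∪ D4)ᶜ with hA
  have hAcard : A.card + (R.card + 2).choose 2 + (Fintype.card ι - S.card - R.card) * S.card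
      = Fintype.card (Sym2 ι) := by
    have h1 : A.card + (D1 ∪ D4).card = Fintype.card (Sym2 ι) := by
      rw [hA]; exact card_compl_add_card _
    rw [card_union_of_disjoint hD14, hD1card, hD4card] at h1
    omega
  refine ⟨A.card, hAcard, ?_⟩
  -- pairs inside S meeting I, and pairs between R and S, are recorded in A
  have hA_block : ∀ a b : S, (a ∈ I ∨ b ∈ I) → s((a : ι), (b : ι)) ∈ A := by
    intro a b hab
    rw [hA, mem_compl, mem_union, not_or]
    constructor
    · intro h
      have h2 := mk_mem_sym2_iff.1 h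
      rcases hab with ha | hb
      · exact hJI a ha h2.1
      · exact hJI b hb h2.2
    · intro h
      obtain ⟨⟨i, c⟩, hp, heq⟩ := mem_image.1 h
      have hp1 := mem_product.1 hp
      simp only [Sym2.eq_iff] at heq
      rcases heq with ⟨h1, _⟩ | ⟨h1, _⟩
      · exact hT'S _ hp1.1 (by rw [show i = a from h1]; exact a.2)
      · exact hT'S _ hp1.1 (by rw [show i = b from h1]; exact b.2)
  have hA_rows : ∀ (i : ι) (b : S), i ∈ R → s(i, (b : ι)) ∈ A := by
    intro i b hi
    have hiS : i ∉ S := disjoint_left.1 hdisj hi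
    rw [hA, mem_compl, mem_union, not_or]
    constructor
    · intro h
      exact hiS (hJS _ (mk_mem_sym2_iff.1 h).1)
    · intro h
      obtain ⟨⟨i', c⟩, hp, heq⟩ := mem_image.1 h
      have hp1 := mem_product.1 hp
      simp only [Sym2.eq_iff] at heq
      rcases heq with ⟨h1, _⟩ | ⟨_, h2⟩
      · exact hT'R _ hp1.1 (by rw [show i' = i from h1]; exact hi)
      · exact hiS (by rw [show i = c from (Eq.symm (by simpa using h2))]; exact hp1.2)
  -- the block is determined
  have hblock : ∀ ω ω' : Sym2 ι → Bool, Wit ω S R I → Wit ω' S R I → (∀ e ∈ A, ω e = ω' e) →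
      ∀ a b, subM ω S a b = subM ω' S a b := by
    intro ω ω' hω hω' hag
    apply entries_determined (subM ω S) (subM ω' S) I hω.span hω'.span hω.inv
    intro a b hab
    simp only [subM, mat]
    rw [hag _ (hA_block a b hab)]
  classical
  set P := univ.filter fun ω : Sym2 ι → Bool => Wit ω S R I with hP
  let f : (Sym2 ι → Bool) → (A → Bool) := fun ω e => ω e
  have hmain := card_le_mul_card_image (f := f) P
    ((S.card.choose (S.card / 2)) ^ (Fintype.card ι - S.card - R.card)) ?_
  · refine hmain.trans (Nat.mul_le_mul_left _ ?_)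
    calc (P.image f).card ≤ Fintype.card (A → Bool) := card_le_univ _
      _ = 2 ^ A.card := by simp
  intro g hg
  obtain ⟨ω₀, hω₀, rfl⟩ := mem_image.1 hg
  have hW₀ : Wit ω₀ S R I := (mem_filter.1 hω₀).2
  obtain ⟨v, hv, hvrows, hvline⟩ := hW₀.vec
  let lo : Finset (S → Bool) := univ.filter fun σ : S → Bool => ∑ b, sg (σ b) * v b = 0
  have hlo : lo.card ≤ S.card.choose (S.card / 2) := by
    have := littlewood_offord v hv
    rw [Fintype.card_coe] at this
    convert this
  let h : (Sym2 ι → Bool) → (T' → S → Bool) := fun ω i b => ω s((i : ι), (b : ι))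
  have hagA : ∀ ω ∈ P.filter (fun ω => f ω = f ω₀), ∀ e ∈ A, ω e = ω₀ e := by
    intro ω hω e he
    exact congrFun (mem_filter.1 hω).2 ⟨e, he⟩
  have hcard2 : (P.filter (fun ω => f ω = f ω₀)).card ≤
      (Fintype.piFinset fun _ : T' => lo).card := by
    apply card_le_card_of_injOn h
    · intro ω hω
      have hω' := mem_coe.1 hω
      have hWω : Wit ω S R I := (mem_filter.1 (mem_filter.1 hω').1).2
      have hag := hagA ω hω'
      have hbl := hblock ω ω₀ hWω hW₀ hag
      rw [mem_coe, Fintype.mem_piFinset]
      intro i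
      obtain ⟨v', hv', hv'rows, _⟩ := hWω.vec
      -- v' is a multiple of v
      obtain ⟨c, hc⟩ := hvline v'
        (by
          intro a
          rw [← hv'rows a]
          refine sum_congr rfl fun b _ => ?_
          rw [← hbl a b]
          rfl)
        (by
          intro j hj
          rw [← hv'rows j]
          refine sum_congr rfl fun b _ => ?_
          simp only [mat]
          rw [hag _ (hA_rows j b hj)])
      have hcne : c ≠ 0 := by
        rintro rfl
        have hSne : S.Nonempty := by
          rw [← card_pos]; omega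
        obtain ⟨b, hb⟩ := hSne
        apply hv' ⟨b, hb⟩
        rw [hc]
        simp
      refine mem_filter.2 ⟨mem_univ _, ?_⟩
      have h1 := hv'rows i
      rw [hc] at h1
      have h2 : ∑ b : S, mat ω i b * (c • v) b = c * ∑ b : S, mat ω i b * v b := by
        rw [mul_sum]
        refine sum_congr rfl fun b _ => ?_
        simp only [Pi.smul_apply, smul_eq_mul]
        ring
      rw [h2] at h1
      exact (mul_eq_zero.1 h1).resolve_left hcne
    · intro ω hω ω' hω' heq
      have hω1 := mem_coe.1 hω
      have hω2 := mem_coe.1 hω'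
      have hW1 : Wit ω S R I := (mem_filter.1 (mem_filter.1 hω1).1).2
      have hW2 : Wit ω' S R I := (mem_filter.1 (mem_filter.1 hω2).1).2
      have hbl1 := hblock ω ω₀ hW1 hW₀ (hagA ω hω1)
      have hbl2 := hblock ω' ω₀ hW2 hW₀ (hagA ω' hω2)
      funext e
      by_cases heA : e ∈ A
      · rw [hagA ω hω1 e heA, hagA ω' hω2 e heA]
      · rw [hA, mem_compl, not_not, mem_union] at heA
        rcases heA with he1 | he4
        · induction e using Sym2.ind with
          | _ a b =>
            have hab := mk_mem_sym2_iff.1 he1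
            have h3 := (hbl1 ⟨a, hJS a hab.1⟩ ⟨b, hJS b hab.2⟩).trans
              (hbl2 ⟨a, hJS a hab.1⟩ ⟨b, hJS b hab.2⟩).symm
            exact sg_inj h3
        · obtain ⟨⟨i, b⟩, hp, rfl⟩ := mem_image.1 he4
          have hp1 := mem_product.1 hp
          exact congrFun (congrFun heq ⟨i, hp1.1⟩) ⟨b, hp1.2⟩
  refine hcard2.trans ?_
  rw [Fintype.card_piFinset, prod_const, card_univ, Fintype.card_coe, hT'card]
  exact Nat.pow_le_pow_left hlo _

end Vale.Agent.Lib.P160
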