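import Mathlib
import Vale.Agent.Lib.P160.Count

/-!
The union bound over the witness data.
-/

namespace Vale.Agent.Lib.P160

open Finset

variable {ι : Type} [Fintype ι] [DecidableEq ι]

/-- normalised Littlewood-Offord bound -/
noncomputable def rho (t : ℕ) : ℝ := (t.choose (t / 2) : ℝ) / 2 ^ t

/-- the weight of one piece of witness data. -/
noncomputable def wt (n t k : ℕ) : ℝ :=
  (1 / 2 : ℝ) ^ ((k + 1).choose 2) * rho t ^ (n - t - (k - 1))

/-- the final bound. -/
noncomputable def bound (n s : ℕ) : ℝ :=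
  ∑ t ∈ Icc 1 s, (n.choose t : ℝ) *
    ∑ k ∈ Icc 1 t, ((t.choose (t - k) : ℝ) * ((n - t).choose (k - 1) : ℝ)) * wt n t k

theorem wit_count_real (S R : Finset ι) (I : Finset S) (k : ℕ) (hdisj : Disjoint R S)
    (hk : 1 ≤ k) (hR : R.card = k - 1) (hcard : R.card + 1 + I.card = S.card) :
    (((by classical exact (univ.filter fun ω : Sym2 ι → Bool => Wit ω S R I).card) : ℕ) : ℝ)
      ≤ 2 ^ (Fintype.card (Sym2 ι)) * wt (Fintype.card ι) S.card k := by
  classical
  obtain ⟨a, ha, hle⟩ := wit_count_nat S R I hdisj hcard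
  have hk2 : R.card + 2 = k + 1 := by omega
  rw [hk2] at ha
  rw [hR] at ha hle
  set m := Fintype.card ι - S.card - (k - 1) with hm
  set c := S.card.choose (S.card / 2) with hc
  have h1 : (((univ.filter fun ω : Sym2 ι → Bool => Wit ω S R I).card : ℕ) : ℝ)
      ≤ ((c : ℝ) ^ m) * 2 ^ a := by exact_mod_cast hle
  refine le_trans (le_of_eq ?_) (h1.trans (le_of_eq ?_))
  · rfl
  · rw [← ha]
    simp only [wt, rho]
    rw [← hm, ← hc, pow_add, pow_add, div_pow (c : ℝ)]
    have h2 : ((2 : ℝ) ^ ((k + 1).choose 2)) * (1 / 2 : ℝ) ^ ((k + 1).choose 2) = 1 := by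
      rw [← mul_pow]; norm_num
    have h3 : ((2 : ℝ) ^ (m * S.card)) = ((2 : ℝ) ^ S.card) ^ m := by
      rw [mul_comm, pow_mul]
    rw [h3]
    have h4 : ((2 : ℝ) ^ S.card) ^ m ≠ 0 := by positivity
    have key : ∀ (A D B E c : ℝ), D * B = 1 → E ≠ 0 → c * A = A * D * E * (B * (c / E)) := by
      intro A D B E c h h'
      have h5 : E * (c / E) = c := mul_div_cancel₀ _ h'
      calc c * A = A * 1 * (E * (c / E)) := by rw [h5]; ring
        _ = A * (D * B) * (E * (c / E)) := by rw [h]
        _ = _ := by ring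
    exact key _ _ _ _ _ h2 h4

theorem bad_card_le (s : ℕ) :
    (((by classical exact (univ.filter fun ω : Sym2 ι → Bool => Bad ω s).card) : ℕ) : ℝ)
      ≤ 2 ^ (Fintype.card (Sym2 ι)) * bound (Fintype.card ι) s := by
  classical
  set n := Fintype.card ι with hn
  set N := Fintype.card (Sym2 ι) with hN
  let U : Finset (Sym2 ι → Bool) :=
    (Icc 1 s).biUnion fun t => (powersetCard t (univ : Finset ι)).biUnion fun S =>
      (Icc 1 t).biUnion fun k => (powersetCard (t - k) (univ : Finset S)).biUnion fun I =>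
        (powersetCard (k - 1) Sᶜ).biUnion fun R =>
          univ.filter fun ω : Sym2 ι → Bool => Wit ω S R I
  have hsub : (univ.filter fun ω : Sym2 ι → Bool => Bad ω s) ⊆ U := by
    intro ω hω
    obtain ⟨S, R, I, hSne, hSs, hdisj, hcard, hW⟩ := exists_wit ω s (mem_filter.1 hω).2
    have hSpos : 1 ≤ S.card := card_pos.2 hSne
    simp only [U, mem_biUnion, mem_filter, mem_univ, true_and]
    refine ⟨S.card, mem_Icc.2 ⟨hSpos, hSs⟩, S, mem_powersetCard.2 ⟨subset_univ _, rfl⟩,
      R.card + 1, mem_Icc.2 ⟨by omega, by omega⟩, I, mem_powersetCard.2 ⟨subset_univ _, by omega⟩,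
      R, mem_powersetCard.2 ⟨?_, by omega⟩, hW⟩
    intro a ha
    exact mem_compl.2 (disjoint_left.1 hdisj ha)
  have h1 : ((univ.filter fun ω : Sym2 ι → Bool => Bad ω s).card : ℝ) ≤ (U.card : ℝ) := by
    exact_mod_cast card_le_card hsub
  have h2 : (U.card : ℝ) ≤ 2 ^ N * bound n s := by
    simp only [bound, U, mul_sum]
    refine (Nat.cast_le.2 card_biUnion_le).trans ?_
    push_cast
    refine sum_le_sum fun t ht => ?_
    refine (Nat.cast_le.2 card_biUnion_le).trans ?_
    push_cast
    have hconst : ∀ S ∈ powersetCard t (univ : Finset ι),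
        ((((Icc 1 t).biUnion fun k => (powersetCard (t - k) (univ : Finset S)).biUnion fun I =>
          (powersetCard (k - 1) Sᶜ).biUnion fun R =>
            univ.filter fun ω : Sym2 ι → Bool => Wit ω S R I).card : ℕ) : ℝ)
        ≤ ∑ k ∈ Icc 1 t, 2 ^ N * (((t.choose (t - k) : ℝ) * ((n - t).choose (k - 1) : ℝ))
            * wt n t k) := by
      intro S hS
      have hSt : S.card = t := (mem_powersetCard.1 hS).2
      refine (Nat.cast_le.2 card_biUnion_le).trans ?_
      push_cast
      refine sum_le_sum fun k hk => ?_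
      obtain ⟨hk1, hk2⟩ := mem_Icc.1 hk
      refine (Nat.cast_le.2 card_biUnion_le).trans ?_
      push_cast
      have hI : ∀ I ∈ powersetCard (t - k) (univ : Finset S),
          ((((powersetCard (k - 1) Sᶜ).biUnion fun R =>
              univ.filter fun ω : Sym2 ι → Bool => Wit ω S R I).card : ℕ) : ℝ)
          ≤ ((n - t).choose (k - 1) : ℝ) * (2 ^ N * wt n t k) := by
        intro I hI
        have hIc : I.card = t - k := (mem_powersetCard.1 hI).2
        refine (Nat.cast_le.2 card_biUnion_le).trans ?_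
        push_cast
        have hR : ∀ R ∈ powersetCard (k - 1) Sᶜ,
            (((univ.filter fun ω : Sym2 ι → Bool => Wit ω S R I).card : ℕ) : ℝ)
            ≤ 2 ^ N * wt n t k := by
          intro R hR
          obtain ⟨hRS, hRc⟩ := mem_powersetCard.1 hR
          have hdisj : Disjoint R S := by
            rw [disjoint_left]
            intro a ha
            exact mem_compl.1 (hRS ha)
          have := wit_count_real S R I k hdisj hk1 hRc (by omega)
          rw [hSt] at this
          convert this using 2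
        refine (sum_le_card_nsmul (powersetCard (k - 1) Sᶜ) _ _ hR).trans (le_of_eq ?_)
        rw [card_powersetCard, card_compl, hSt, nsmul_eq_mul]
      refine (sum_le_card_nsmul (powersetCard (t - k) (univ : Finset S)) _ _ hI).trans
        (le_of_eq ?_)
      rw [card_powersetCard, card_univ, Fintype.card_coe, hSt, nsmul_eq_mul]
      ring
    refine (sum_le_card_nsmul (powersetCard t (univ : Finset ι)) _ _ hconst).trans (le_of_eq ?_)
    rw [card_powersetCard, card_univ, ← hn, nsmul_eq_mul, mul_sum]
    refine sum_congr rfl fun k _ => ?_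
    ring
  exact le_trans (le_of_eq (by convert rfl)) (h1.trans h2)

end Vale.Agent.Lib.P160
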