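import Mathlib
import Vale.Agent.Lib.P160.Union

/-!
The numerics of the union bound.
-/

namespace Vale.Agent.Lib.P160

open Finset

theorem central_sq (m : ℕ) : (Nat.centralBinom m) ^ 2 * (2 * m + 1) ≤ 16 ^ m := by
  induction m with
  | zero => simp
  | succ m ih =>
    have h1 := Nat.succ_mul_centralBinom_succ m
    set c := Nat.centralBinom m
    set c' := Nat.centralBinom (m + 1)
    have h2 : (m + 1) ^ 2 * (c' ^ 2 * (2 * (m + 1) + 1)) ≤ (m + 1) ^ 2 * 16 ^ (m + 1) := by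
      have h3 : (m + 1) ^ 2 * (c' ^ 2 * (2 * (m + 1) + 1))
          = ((m + 1) * c') ^ 2 * (2 * m + 3) := by ring
      rw [h3, h1]
      have h4 : (2 * (2 * m + 1) * c) ^ 2 * (2 * m + 3)
          = (c ^ 2 * (2 * m + 1)) * (4 * (2 * m + 1) * (2 * m + 3)) := by ring
      rw [h4]
      calc (c ^ 2 * (2 * m + 1)) * (4 * (2 * m + 1) * (2 * m + 3))
          ≤ 16 ^ m * (16 * (m + 1) ^ 2) := by
            apply Nat.mul_le_mul ih
            nlinarith
        _ = (m + 1) ^ 2 * 16 ^ (m + 1) := by ring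
    exact Nat.le_of_mul_le_mul_left h2 (by positivity)

theorem choose_sq (t : ℕ) : (t.choose (t / 2)) ^ 2 * (t + 1) ≤ 4 ^ t := by
  rcases Nat.even_or_odd' t with ⟨m, rfl | rfl⟩
  · have h := central_sq m
    rw [Nat.centralBinom_eq_two_mul_choose] at h
    have h1 : 2 * m / 2 = m := by omega
    rw [h1, pow_mul]
    norm_num
    exact h
  · have h := central_sq (m + 1)
    rw [Nat.centralBinom_eq_two_mul_choose] at h
    have h1 : (2 * m + 1) / 2 = m := by omega
    rw [h1]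
    have h2 : (2 * (m + 1)).choose (m + 1) = 2 * (2 * m + 1).choose m := by
      have h3 : 2 * (m + 1) = (2 * m + 1) + 1 := by ring
      rw [h3, Nat.choose_succ_succ' (2 * m + 1) m]
      have h4 : (2 * m + 1).choose (m + 1) = (2 * m + 1).choose m := by
        apply Nat.choose_symm_half
      rw [h4]; ring
    rw [h2] at h
    have h5 : (2 * (2 * m + 1).choose m) ^ 2 * (2 * (m + 1) + 1)
        = 4 * (((2 * m + 1).choose m) ^ 2 * (2 * m + 3)) := by ring
    rw [h5] at h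
    have h6 : (16 : ℕ) ^ (m + 1) = 4 * 4 ^ (2 * m + 1) := by
      rw [pow_succ, pow_succ, pow_mul]
      norm_num
      ring
    rw [h6] at h
    have h7 : ((2 * m + 1).choose m) ^ 2 * (2 * m + 3) ≤ 4 ^ (2 * m + 1) :=
      Nat.le_of_mul_le_mul_left h (by norm_num)
    refine le_trans (Nat.mul_le_mul_left _ (by omega)) h7

lemma rho_nonneg (t : ℕ) : 0 ≤ rho t := by
  unfold rho; positivity

lemma rho_sq (t : ℕ) : rho t ^ 2 * (t + 1) ≤ 1 := by
  have h : (((t.choose (t / 2)) ^ 2 * (t + 1) : ℕ) : ℝ) ≤ ((4 ^ t : ℕ) : ℝ) := by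
    exact_mod_cast choose_sq t
  push_cast at h
  unfold rho
  rw [div_pow, div_mul_eq_mul_div, div_le_one (by positivity)]
  have : ((2 : ℝ) ^ t) ^ 2 = 4 ^ t := by
    rw [← pow_mul, mul_comm, pow_mul]; norm_num
  rw [this]
  exact h

lemma rho_le_of_large {δ : ℝ} (hδ : 0 < δ) {t : ℕ} (ht : 1 / δ ^ 2 ≤ t) : rho t ≤ δ := by
  have h1 := rho_sq t
  have h2 : (1 : ℝ) ≤ δ ^ 2 * t := by
    have := (div_le_iff₀ (by positivity)).1 ht
    linarith
  have h3 : rho t ^ 2 ≤ δ ^ 2 := by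
    by_contra hcon
    push Not at hcon
    have h4 : (0 : ℝ) < t := by
      by_contra h0
      have h5 : (t : ℝ) = 0 := le_antisymm (not_lt.1 h0) (Nat.cast_nonneg t)
      rw [h5] at h2
      norm_num at h2
    have h6 : δ ^ 2 * t < rho t ^ 2 * t := mul_lt_mul_of_pos_right hcon h4
    nlinarith [sq_nonneg (rho t)]
  exact (abs_le_of_sq_le_sq' h3 hδ.le).2

lemma rho_one : rho 1 = 1 / 2 := by norm_num [rho]
lemma rho_two : rho 2 = 1 / 2 := by norm_num [rho, Nat.choose]

lemma rho_le_three_eighths {t : ℕ} (ht : 3 ≤ t) : rho t ≤ 3 / 8 := by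
  by_cases h : 8 ≤ t
  · apply rho_le_of_large (by norm_num)
    have : (8 : ℝ) ≤ t := by exact_mod_cast h
    norm_num
    linarith
  · have : t = 3 ∨ t = 4 ∨ t = 5 ∨ t = 6 ∨ t = 7 := by omega
    rcases this with rfl | rfl | rfl | rfl | rfl <;> norm_num [rho, Nat.choose]

/-- Gaussian decay beats every geometric rate. -/
lemma gauss_le {β : ℝ} (hβ : 0 < β) (hβ1 : β ≤ 1) :
    ∃ D : ℝ, 1 ≤ D ∧ ∀ j : ℕ, (1 / 2 : ℝ) ^ ((j + 2).choose 2) ≤ D * β ^ j := by
  obtain ⟨L, hL⟩ := exists_pow_lt_of_lt_one hβ (by norm_num : (1 / 2 : ℝ) < 1)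
  have hinv : 1 ≤ 1 / β := by
    rw [le_div_iff₀ hβ]; linarith
  refine ⟨(1 / β) ^ (2 * L), one_le_pow₀ hinv, fun j => ?_⟩
  have hchoose : 2 * (j + 2).choose 2 = (j + 2) * (j + 1) := by
    induction j with
    | zero => norm_num
    | succ j ih =>
      have : (j + 1 + 2).choose 2 = (j + 2).choose 1 + (j + 2).choose 2 :=
        Nat.choose_succ_succ (j + 2) 1
      rw [this, Nat.choose_one_right, mul_add, ih]
      ring
  by_cases hj : 2 * L ≤ j
  · have h1 : j * L ≤ (j + 2).choose 2 := by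
      have : 2 * (j * L) ≤ 2 * (j + 2).choose 2 := by
        rw [hchoose]
        nlinarith
      omega
    calc (1 / 2 : ℝ) ^ ((j + 2).choose 2) ≤ (1 / 2 : ℝ) ^ (j * L) :=
          pow_le_pow_of_le_one (by norm_num) (by norm_num) h1
      _ = ((1 / 2 : ℝ) ^ L) ^ j := by rw [mul_comm, pow_mul]
      _ ≤ β ^ j := pow_le_pow_left₀ (by positivity) hL.le _
      _ ≤ (1 / β) ^ (2 * L) * β ^ j := by
          have h2 : 1 ≤ (1 / β) ^ (2 * L) := one_le_pow₀ hinv
          have h3 : 0 ≤ β ^ j := by positivity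
          nlinarith
  · have h1 : (1 / 2 : ℝ) ^ ((j + 2).choose 2) ≤ 1 := pow_le_one₀ (by norm_num) (by norm_num)
    have h2 : β ^ (2 * L) ≤ β ^ j := pow_le_pow_of_le_one hβ.le hβ1 (by omega)
    have h3 : (1 / β) ^ (2 * L) * β ^ (2 * L) = 1 := by
      rw [← mul_pow, one_div, inv_mul_cancel₀ hβ.ne', one_pow]
    have h4 : 0 ≤ (1 / β) ^ (2 * L) := by positivity
    nlinarith [mul_le_mul_of_nonneg_left h2 h4]

/-- The inner sum. -/
theorem inner_le {β ρ D : ℝ} (hβ : 0 ≤ β) (hρ : 0 ≤ ρ) (hD0 : 0 ≤ D)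
    (hD : ∀ j : ℕ, (1 / 2 : ℝ) ^ ((j + 2).choose 2) ≤ D * β ^ j) (t g : ℕ) :
    ∑ k ∈ Icc 1 t, ((t.choose (t - k) : ℝ) * (g.choose (k - 1) : ℝ)) *
        ((1 / 2 : ℝ) ^ ((k + 1).choose 2) * ρ ^ (g - (k - 1)))
      ≤ 2 ^ t * D * (β + ρ) ^ g := by
  set H : ℕ → ℝ := fun j => β ^ j * ρ ^ (g - j) * (g.choose j : ℝ) with hH
  have hH0 : ∀ j, 0 ≤ H j := fun j => by simp only [hH]; positivity
  have h1 : ∀ k ∈ Icc 1 t, ((t.choose (t - k) : ℝ) * (g.choose (k - 1) : ℝ)) *
        ((1 / 2 : ℝ) ^ ((k + 1).choose 2) * ρ ^ (g - (k - 1)))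
        ≤ 2 ^ t * D * H (k - 1) := by
    intro k hk
    obtain ⟨hk1, _⟩ := mem_Icc.1 hk
    obtain ⟨j, rfl⟩ : ∃ j, k = j + 1 := ⟨k - 1, by omega⟩
    simp only [Nat.add_sub_cancel, hH]
    have h2 : ((t.choose (t - (j + 1)) : ℕ) : ℝ) ≤ 2 ^ t := by
      exact_mod_cast Nat.choose_le_two_pow _ _
    have h3 := hD j
    have h4 : (0 : ℝ) ≤ ρ ^ (g - j) * (g.choose j : ℝ) := by positivity
    calc ((t.choose (t - (j + 1)) : ℝ) * (g.choose j : ℝ)) *
          ((1 / 2 : ℝ) ^ ((j + 2).choose 2) * ρ ^ (g - j))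
        = (t.choose (t - (j + 1)) : ℝ) * ((1 / 2 : ℝ) ^ ((j + 2).choose 2))
          * (ρ ^ (g - j) * (g.choose j : ℝ)) := by ring
      _ ≤ 2 ^ t * (D * β ^ j) * (ρ ^ (g - j) * (g.choose j : ℝ)) := by
          apply mul_le_mul_of_nonneg_right _ h4
          exact mul_le_mul h2 h3 (by positivity) (by positivity)
      _ = _ := by ring
  refine (sum_le_sum h1).trans ?_
  rw [← mul_sum]
  apply mul_le_mul_of_nonneg_left _ (by positivity)
  rw [add_pow]
  -- reindex
  have h5 : ∑ k ∈ Icc 1 t, H (k - 1) = ∑ j ∈ range t, H j := by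
    refine sum_nbij' (fun k => k - 1) (fun j => j + 1) ?_ ?_ ?_ ?_ ?_
    · intro k hk
      have := mem_Icc.1 hk
      exact mem_range.2 (by omega)
    · intro j hj
      have := mem_range.1 hj
      exact mem_Icc.2 ⟨by omega, by omega⟩
    · intro k hk
      have := mem_Icc.1 hk
      omega
    · intro j _
      simp
    · intro k _
      rfl
  rw [h5]
  calc ∑ j ∈ range t, H j ≤ ∑ j ∈ range t ∪ range (g + 1), H j :=
        sum_le_sum_of_subset_of_nonneg subset_union_left (fun j _ _ => hH0 j)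
    _ = ∑ j ∈ range (g + 1), H j := by
        symm
        apply sum_subset subset_union_right
        intro j _ hj
        have hgj : g < j := by
          have := mem_range.not.1 hj
          omega
        simp only [hH]
        rw [Nat.choose_eq_zero_of_lt hgj]
        simp

/-- A polynomial is eventually beaten by a decaying exponential. -/
lemma poly_exp_bdd (p : ℕ) : ∃ K : ℝ, 0 ≤ K ∧ ∀ n : ℕ, (n : ℝ) ^ p * (7 / 8 : ℝ) ^ n ≤ K := by
  have h := tendsto_pow_const_mul_const_pow_of_abs_lt_one p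
    (show |(7 / 8 : ℝ)| < 1 by rw [abs_of_pos] <;> norm_num)
  obtain ⟨K, hK⟩ := h.bddAbove_range
  refine ⟨max K 0, le_max_right _ _, fun n => le_max_of_le_left (hK ⟨n, rfl⟩)⟩

/-- one summand of the bound -/
noncomputable def term (n t : ℕ) : ℝ :=
  (n.choose t : ℝ) *
    ∑ k ∈ Icc 1 t, ((t.choose (t - k) : ℝ) * ((n - t).choose (k - 1) : ℝ)) * wt n t k

lemma term_nonneg (n t : ℕ) : 0 ≤ term n t := by
  unfold term wt
  have := rho_nonneg t
  positivity

/-- general estimate of the summands -/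
lemma term_le {β D : ℝ} (hβ : 0 ≤ β) (hD0 : 0 ≤ D)
    (hD : ∀ j : ℕ, (1 / 2 : ℝ) ^ ((j + 2).choose 2) ≤ D * β ^ j) (n t : ℕ) :
    term n t ≤ (n.choose t : ℝ) * (2 ^ t * D * (β + rho t) ^ (n - t)) := by
  unfold term wt
  apply mul_le_mul_of_nonneg_left _ (by positivity)
  exact inner_le hβ (rho_nonneg t) hD0 hD t (n - t)

/-- small support sizes -/
lemma term_small (n t : ℕ) (hn : 1 ≤ n) (ht1 : 1 ≤ t) (ht2 : t ≤ 2) :
    term n t ≤ 32 * (n : ℝ) ^ 3 * (1 / 2) ^ n := by
  have hn' : (1 : ℝ) ≤ n := by exact_mod_cast hn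
  have hrho : rho t = 1 / 2 := by
    have : t = 1 ∨ t = 2 := by omega
    rcases this with rfl | rfl
    · exact rho_one
    · exact rho_two
  have h1 : (n.choose t : ℝ) ≤ (n : ℝ) ^ 2 := by
    have h2 : n.choose t ≤ n ^ t := Nat.choose_le_pow n t
    have h3 : n ^ t ≤ n ^ 2 := Nat.pow_le_pow_right hn ht2
    exact_mod_cast h2.trans h3
  have h2 : ∀ k ∈ Icc 1 t, ((t.choose (t - k) : ℝ) * ((n - t).choose (k - 1) : ℝ)) * wt n t k
      ≤ 2 * (n : ℝ) * (8 * (1 / 2) ^ n) := by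
    intro k hk
    obtain ⟨hk1, hk2⟩ := mem_Icc.1 hk
    have h3 : ((t.choose (t - k) : ℕ) : ℝ) ≤ 2 := by
      have : t = 1 ∨ t = 2 := by omega
      have hk3 : k = 1 ∨ k = 2 := by omega
      rcases this with rfl | rfl <;> rcases hk3 with rfl | rfl <;> norm_num [Nat.choose] <;> omega
    have h4 : (((n - t).choose (k - 1) : ℕ) : ℝ) ≤ n := by
      have hk3 : k - 1 = 0 ∨ k - 1 = 1 := by omega
      rcases hk3 with h | h
      · rw [h]; simpa using hn'
      · rw [h, Nat.choose_one_right]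
        exact_mod_cast Nat.sub_le n t
    have h5 : wt n t k ≤ 8 * (1 / 2) ^ n := by
      unfold wt
      rw [hrho]
      have h6 : (1 / 2 : ℝ) ^ ((k + 1).choose 2) ≤ 1 := pow_le_one₀ (by norm_num) (by norm_num)
      have h7 : (1 / 2 : ℝ) ^ (n - t - (k - 1)) ≤ 8 * (1 / 2) ^ n := by
        have h8 : n ≤ (n - t - (k - 1)) + 3 := by omega
        calc (1 / 2 : ℝ) ^ (n - t - (k - 1)) = 8 * (1 / 2) ^ ((n - t - (k - 1)) + 3) := by
              rw [pow_add]; norm_num; ring
          _ ≤ 8 * (1 / 2) ^ n := by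
              apply mul_le_mul_of_nonneg_left _ (by norm_num)
              exact pow_le_pow_of_le_one (by norm_num) (by norm_num) h8
      have h9 : (0 : ℝ) ≤ (1 / 2) ^ (n - t - (k - 1)) := by positivity
      nlinarith
    have h10 : (0 : ℝ) ≤ wt n t k := by
      unfold wt
      have := rho_nonneg t
      positivity
    exact mul_le_mul (mul_le_mul h3 h4 (by positivity) (by norm_num)) h5 h10 (by positivity)
  unfold term
  calc (n.choose t : ℝ) * ∑ k ∈ Icc 1 t, ((t.choose (t - k) : ℝ) * ((n - t).choose (k - 1) : ℝ))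
        * wt n t k
      ≤ (n : ℝ) ^ 2 * ((Icc 1 t).card • (2 * (n : ℝ) * (8 * (1 / 2) ^ n))) := by
        apply mul_le_mul h1 (sum_le_card_nsmul _ _ _ h2) _ (by positivity)
        apply sum_nonneg
        intro k _
        unfold wt
        have := rho_nonneg t
        positivity
    _ ≤ (n : ℝ) ^ 2 * (2 • (2 * (n : ℝ) * (8 * (1 / 2) ^ n))) := by
        apply mul_le_mul_of_nonneg_left _ (by positivity)
        apply nsmul_le_nsmul_left (by positivity)
        simp
        omega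
    _ = 32 * (n : ℝ) ^ 3 * (1 / 2) ^ n := by
        simp only [nsmul_eq_mul]
        push_cast
        ring

/-- the main numeric estimate -/
theorem bound_le (ε : ℝ) (hε : 0 < ε) :
    ∃ C : ℝ, 0 ≤ C ∧ ∀ n s : ℕ, (s : ℝ) ≤ (1 - ε) * n →
      bound n s ≤ C * (n : ℝ) ^ 3 * (1 / 2) ^ n := by
  -- the constants
  obtain ⟨m, hm⟩ : ∃ m : ℕ, 1 / ε < m := exists_nat_gt (1 / ε)
  have hm0 : (0 : ℝ) < m := lt_trans (by positivity) hm
  have hmε : 1 ≤ (m : ℝ) * ε := by
    have := (div_lt_iff₀ hε).1 hm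
    linarith
  set δ : ℝ := (1 / 8) ^ m / 2 with hδ
  have hδ0 : 0 < δ := by positivity
  have hδ1 : δ ≤ 1 := by
    have : (1 / 8 : ℝ) ^ m ≤ 1 := pow_le_one₀ (by norm_num) (by norm_num)
    rw [hδ]; linarith
  obtain ⟨t₀, ht₀⟩ : ∃ t₀ : ℕ, 1 / δ ^ 2 < t₀ := exists_nat_gt _
  obtain ⟨D₁, hD₁1, hD₁⟩ := gauss_le hδ0 hδ1
  obtain ⟨D₂, hD₂1, hD₂⟩ := gauss_le (show (0 : ℝ) < 1 / 16 by norm_num) (by norm_num)
  obtain ⟨K₂, hK₂0, hK₂⟩ := poly_exp_bdd t₀
  set K : ℝ := D₁ + K₂ * 2 ^ t₀ * D₂ * (16 / 7) ^ t₀ with hK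
  have hK0 : 0 ≤ K := by positivity
  refine ⟨64 + K, by positivity, ?_⟩
  intro n s hs
  have hsum : bound n s = ∑ t ∈ Icc 1 s, term n t := rfl
  rcases Nat.eq_zero_or_pos n with rfl | hn
  · have hs0 : s = 0 := by
      have : (s : ℝ) ≤ 0 := by simpa using hs
      have h2 : (s : ℝ) = 0 := le_antisymm this (Nat.cast_nonneg s)
      exact_mod_cast h2
    rw [hsum, hs0]
    simp
  have hn' : (1 : ℝ) ≤ n := by exact_mod_cast hn
  have hn0 : (0 : ℝ) < n := by linarith
  have hsn : s ≤ n := by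
    have : (s : ℝ) ≤ n := by nlinarith
    exact_mod_cast this
  -- big support sizes
  have hbig : ∀ t ∈ Icc 1 s, 3 ≤ t → term n t ≤ K * (1 / 2) ^ n := by
    intro t ht ht3
    obtain ⟨_, hts⟩ := mem_Icc.1 ht
    have htn : t ≤ n := hts.trans hsn
    by_cases hlarge : t₀ ≤ t
    · -- large t, uses ρ small
      have hρ : rho t ≤ δ := by
        apply rho_le_of_large hδ0
        have : (t₀ : ℝ) ≤ t := by exact_mod_cast hlarge
        linarith
      have h1 := term_le hδ0.le (by linarith) hD₁ n t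
      have hgap : n ≤ m * (n - t) := by
        have h2 : (t : ℝ) ≤ (1 - ε) * n := le_trans (by exact_mod_cast hts) hs
        have h3 : ((n - t : ℕ) : ℝ) = (n : ℝ) - t := by
          rw [Nat.cast_sub htn]
        have h4 : (n : ℝ) ≤ m * ((n - t : ℕ) : ℝ) := by
          rw [h3]
          have h5 : ε * n ≤ (n : ℝ) - t := by linarith
          calc (n : ℝ) = 1 * n := by ring
            _ ≤ ((m : ℝ) * ε) * n := by
                apply mul_le_mul_of_nonneg_right hmε hn0.le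
            _ = m * (ε * n) := by ring
            _ ≤ _ := by
                apply mul_le_mul_of_nonneg_left h5 hm0.le
        exact_mod_cast h4
      have h6 : (δ + rho t) ^ (n - t) ≤ (1 / 8) ^ n := by
        calc (δ + rho t) ^ (n - t) ≤ ((1 / 8 : ℝ) ^ m) ^ (n - t) := by
              apply pow_le_pow_left₀ (by have := rho_nonneg t; positivity)
              rw [hδ]; rw [hδ] at hρ; linarith
          _ = (1 / 8 : ℝ) ^ (m * (n - t)) := by rw [pow_mul]
          _ ≤ (1 / 8) ^ n := pow_le_pow_of_le_one (by norm_num) (by norm_num) hgap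
      have h7 : (n.choose t : ℝ) ≤ 2 ^ n := by exact_mod_cast Nat.choose_le_two_pow n t
      have h8 : (2 : ℝ) ^ t ≤ 2 ^ n := pow_le_pow_right₀ (by norm_num) htn
      have hD₁0 : 0 ≤ D₁ := by linarith
      calc term n t ≤ (n.choose t : ℝ) * (2 ^ t * D₁ * (δ + rho t) ^ (n - t)) := h1
        _ ≤ 2 ^ n * (2 ^ n * D₁ * (1 / 8) ^ n) := by
            apply mul_le_mul h7 _ (by have := rho_nonneg t; positivity) (by positivity)
            apply mul_le_mul (mul_le_mul_of_nonneg_right h8 hD₁0) h6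
              (by have := rho_nonneg t; positivity) (by positivity)
        _ = D₁ * ((2 * 2 * (1 / 8)) ^ n) := by
            rw [mul_pow, mul_pow]; ring
        _ = D₁ * (1 / 2) ^ n := by norm_num
        _ ≤ K * (1 / 2) ^ n := by
            apply mul_le_mul_of_nonneg_right _ (by positivity)
            have : 0 ≤ K₂ * 2 ^ t₀ * D₂ * (16 / 7) ^ t₀ := by positivity
            rw [hK]; linarith
    · -- moderate t, uses ρ ≤ 3/8
      have hlarge' : t < t₀ := not_le.1 hlarge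
      have hρ := rho_le_three_eighths ht3
      have h1 := term_le (show (0 : ℝ) ≤ 1 / 16 by norm_num) (by linarith) hD₂ n t
      have h6 : ((1 / 16 : ℝ) + rho t) ^ (n - t) ≤ (7 / 16) ^ n * (16 / 7) ^ t₀ := by
        have h7 : ((1 / 16 : ℝ) + rho t) ^ (n - t) ≤ (7 / 16) ^ (n - t) :=
          pow_le_pow_left₀ (by have := rho_nonneg t; positivity) (by linarith) _
        have h8 : (7 / 16 : ℝ) ^ (n - t) = (7 / 16) ^ n * (16 / 7) ^ t := by
          have h9 : (7 / 16 : ℝ) ^ n = (7 / 16) ^ (n - t) * (7 / 16) ^ t := by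
            rw [← pow_add, Nat.sub_add_cancel htn]
          rw [h9, mul_assoc, ← mul_pow]
          norm_num
        have h10 : (16 / 7 : ℝ) ^ t ≤ (16 / 7) ^ t₀ :=
          pow_le_pow_right₀ (by norm_num) hlarge'.le
        rw [h8] at h7
        exact h7.trans (mul_le_mul_of_nonneg_left h10 (by positivity))
      have h7 : (n.choose t : ℝ) ≤ (n : ℝ) ^ t₀ := by
        have h2 : n.choose t ≤ n ^ t := Nat.choose_le_pow n t
        have h3 : n ^ t ≤ n ^ t₀ := Nat.pow_le_pow_right hn hlarge'.le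
        exact_mod_cast h2.trans h3
      have h8 : (2 : ℝ) ^ t ≤ 2 ^ t₀ := pow_le_pow_right₀ (by norm_num) hlarge'.le
      have hD₂0 : 0 ≤ D₂ := by linarith
      calc term n t ≤ (n.choose t : ℝ) * (2 ^ t * D₂ * ((1 / 16) + rho t) ^ (n - t)) := h1
        _ ≤ (n : ℝ) ^ t₀ * (2 ^ t₀ * D₂ * ((7 / 16) ^ n * (16 / 7) ^ t₀)) := by
            apply mul_le_mul h7 _ (by have := rho_nonneg t; positivity) (by positivity)
            apply mul_le_mul (mul_le_mul_of_nonneg_right h8 hD₂0) h6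
              (by have := rho_nonneg t; positivity) (by positivity)
        _ = ((n : ℝ) ^ t₀ * (7 / 8) ^ n) * (2 ^ t₀ * D₂ * (16 / 7) ^ t₀) * (1 / 2) ^ n := by
            have : (7 / 16 : ℝ) ^ n = (7 / 8) ^ n * (1 / 2) ^ n := by
              rw [← mul_pow]; norm_num
            rw [this]; ring
        _ ≤ K₂ * (2 ^ t₀ * D₂ * (16 / 7) ^ t₀) * (1 / 2) ^ n := by
            apply mul_le_mul_of_nonneg_right _ (by positivity)
            apply mul_le_mul_of_nonneg_right (hK₂ n) (by positivity)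
        _ ≤ K * (1 / 2) ^ n := by
            apply mul_le_mul_of_nonneg_right _ (by positivity)
            rw [hK]
            have : K₂ * (2 ^ t₀ * D₂ * (16 / 7) ^ t₀) = K₂ * 2 ^ t₀ * D₂ * (16 / 7) ^ t₀ := by ring
            linarith
  -- summing up
  have hn3 : (n : ℝ) ≤ (n : ℝ) ^ 3 := by
    have : (1 : ℝ) ≤ (n : ℝ) ^ 2 := one_le_pow₀ hn'
    nlinarith
  have hp : (0 : ℝ) < (1 / 2) ^ n := by positivity
  have hterm : ∀ t ∈ Icc 1 s, term n t ≤
      (if t ≤ 2 then 32 * (n : ℝ) ^ 3 * (1 / 2) ^ n else 0) + K * (1 / 2) ^ n := by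
    intro t ht
    obtain ⟨ht1, _⟩ := mem_Icc.1 ht
    by_cases h : t ≤ 2
    · rw [if_pos h]
      have := term_small n t hn ht1 h
      have h2 : 0 ≤ K * (1 / 2 : ℝ) ^ n := by positivity
      linarith
    · rw [if_neg h, zero_add]
      exact hbig t ht (by omega)
  rw [hsum]
  calc ∑ t ∈ Icc 1 s, term n t
      ≤ ∑ t ∈ Icc 1 s, ((if t ≤ 2 then 32 * (n : ℝ) ^ 3 * (1 / 2) ^ n else 0) + K * (1 / 2) ^ n) :=
        sum_le_sum hterm
    _ = ∑ t ∈ Icc 1 s, (if t ≤ 2 then 32 * (n : ℝ) ^ 3 * (1 / 2) ^ n else 0)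
        + s * (K * (1 / 2) ^ n) := by
        rw [sum_add_distrib, sum_const, Nat.card_Icc, nsmul_eq_mul]
        simp
    _ ≤ 2 * (32 * (n : ℝ) ^ 3 * (1 / 2) ^ n) + n * (K * (1 / 2) ^ n) := by
        apply add_le_add
        · rw [← sum_filter, sum_const, nsmul_eq_mul]
          apply mul_le_mul_of_nonneg_right _ (by positivity)
          have : ((Icc 1 s).filter (fun t => t ≤ 2)).card ≤ (Icc 1 2).card := by
            apply card_le_card
            intro t ht
            obtain ⟨h1, h2⟩ := mem_filter.1 ht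
            exact mem_Icc.2 ⟨(mem_Icc.1 h1).1, h2⟩
          have h3 : (((Icc 1 s).filter (fun t => t ≤ 2)).card : ℝ) ≤ ((Icc 1 2).card : ℝ) := by
            exact_mod_cast this
          simpa using h3
        · apply mul_le_mul_of_nonneg_right _ (by positivity)
          exact_mod_cast hsn
    _ ≤ (64 + K) * (n : ℝ) ^ 3 * (1 / 2) ^ n := by
        have h1 : n * (K * (1 / 2 : ℝ) ^ n) ≤ (n : ℝ) ^ 3 * (K * (1 / 2) ^ n) :=
          mul_le_mul_of_nonneg_right hn3 (by positivity)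
        nlinarith

end Vale.Agent.Lib.P160
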